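import Vale.Agent.P160R.RM.Defs

/-!
P160, reverse Minkowski: width of a finite set of lattice points, by induction on slices.
-/

namespace Vale.Agent.P160R.RM

open Finset

theorem exp_mean_le {β : Type*} (K : Finset β) (p y : β → ℝ) (hp : ∀ a ∈ K, 0 ≤ p a)
    (h1 : ∑ a ∈ K, p a = 1) :
    Real.exp (∑ a ∈ K, p a * y a) ≤ ∑ a ∈ K, p a * Real.exp (y a) := by
  simpa using convexOn_exp.map_sum_le hp h1 (fun a _ => Set.mem_univ (y a))

theorem sum_geom_abs_le {x : ℝ} (hx : 0 ≤ x) (hx1 : x < 1) (K : Finset ℤ) (m : ℤ) :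
    ∑ a ∈ K, x ^ (a - m).natAbs ≤ (1 + x) / (1 - x) := by
  obtain ⟨L, hL⟩ : ∃ L : ℕ, ∀ a ∈ K, (a - m).natAbs ≤ L :=
    ⟨K.sup fun a => (a - m).natAbs, fun a ha => le_sup (f := fun a => (a - m).natAbs) ha⟩
  have hmono : ∑ a ∈ K, x ^ (a - m).natAbs ≤ ∑ b ∈ Icc (-(L : ℤ)) L, x ^ b.natAbs := by
    refine le_of_eq_of_le (sum_image (f := fun b : ℤ => x ^ b.natAbs) (g := fun a => a - m)
      fun a _ b _ h => sub_left_injective h).symm ?_
    refine sum_le_sum_of_subset_of_nonneg (fun b hb => ?_) fun b _ _ => pow_nonneg hx _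
    obtain ⟨a, ha, rfl⟩ := mem_image.1 hb
    have := hL a ha
    rw [mem_Icc]; omega
  refine hmono.trans ?_
  suffices h : (∑ b ∈ Icc (-(L : ℤ)) L, x ^ b.natAbs) * (1 - x) ≤ 1 + x - 2 * x ^ (L + 1) by
    rw [le_div_iff₀ (by linarith)]
    linarith [pow_nonneg hx (L + 1)]
  clear hL hmono
  induction L with
  | zero => simp; linarith
  | succ L ih =>
    have hset : Icc (-((L + 1 : ℕ) : ℤ)) ((L + 1 : ℕ) : ℤ) =
        insert ((L + 1 : ℕ) : ℤ) (insert (-((L + 1 : ℕ) : ℤ)) (Icc (-(L : ℤ)) L)) := by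
      ext z; simp only [mem_Icc, mem_insert]; omega
    rw [hset, sum_insert (by simp only [mem_Icc, mem_insert]; omega),
      sum_insert (by simp only [mem_Icc]; omega), Int.natAbs_neg, Int.natAbs_natCast,
      pow_succ x (L + 1)]
    linear_combination ih

/-- Gibbs: a distribution of mean deviation `A` has entropy at most `1 + log (3 + 2A)`. -/
theorem entropy_le (K : Finset ℤ) (p : ℤ → ℝ) (hp : ∀ a ∈ K, 0 < p a) (h1 : ∑ a ∈ K, p a = 1)
    (m : ℤ) {A : ℝ} (hA : ∑ a ∈ K, p a * |((a - m : ℤ) : ℝ)| = A) :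
    -1 - Real.log (3 + 2 * A) ≤ ∑ a ∈ K, p a * Real.log (p a) := by
  have hA0 : 0 ≤ A := hA ▸ sum_nonneg fun a ha => mul_nonneg (hp a ha).le (abs_nonneg _)
  set s := 1 / (1 + A) with hs
  have hs0 : 0 < s := by positivity
  set q : ℤ → ℝ := fun a => Real.exp (-(s * |((a - m : ℤ) : ℝ)|)) / (3 + 2 * A)
  have hq : ∑ a ∈ K, q a ≤ 1 := by
    rw [← sum_div, div_le_one (by positivity)]
    have e : ∀ a : ℤ, Real.exp (-(s * |((a - m : ℤ) : ℝ)|)) = Real.exp (-s) ^ (a - m).natAbs := fun a => by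
      rw [← Real.exp_nat_mul, Nat.cast_natAbs, Int.cast_abs]; ring_nf
    simp only [e]
    refine (sum_geom_abs_le (Real.exp_pos _).le (Real.exp_lt_one_iff.2 (by linarith)) K m).trans ?_
    rw [div_le_iff₀ (by linarith [Real.exp_lt_one_iff.2 (show -s < 0 by linarith)])]
    have h2 : 1 + s ≤ Real.exp s := by linarith [Real.add_one_le_exp s]
    have h3 : Real.exp (-s) * Real.exp s = 1 := by rw [← Real.exp_add]; simp
    have h4 : s * (1 + A) = 1 := by rw [hs]; field_simp
    have hx := Real.exp_pos (-s)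
    have h5 : Real.exp (-s) * (1 + s) ≤ 1 := (mul_le_mul_of_nonneg_left h2 hx.le).trans_eq h3
    nlinarith [mul_le_mul_of_nonneg_right h5 (show 0 ≤ 1 + A by linarith)]
  have hterm : ∀ a ∈ K, p a * (Real.log (q a) - Real.log (p a)) ≤ q a - p a := fun a ha => by
    have hqa : 0 < q a := by positivity
    rw [← Real.log_div hqa.ne' (hp a ha).ne']
    refine (mul_le_mul_of_nonneg_left (Real.log_le_sub_one_of_pos (div_pos hqa (hp a ha)))
      (hp a ha).le).trans_eq ?_
    field_simp [(hp a ha).ne']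
  have hsum := sum_le_sum hterm
  simp only [mul_sub, sum_sub_distrib] at hsum
  have hlq : ∀ a, p a * Real.log (q a) =
      -(s * (p a * |((a - m : ℤ) : ℝ)|)) - p a * Real.log (3 + 2 * A) := fun a => by
    simp only [q]
    rw [Real.log_div (Real.exp_pos _).ne' (by positivity), Real.log_exp]; ring
  simp only [hlq, sum_sub_distrib, sum_neg_distrib, ← mul_sum, ← sum_mul, hA, h1, one_mul] at hsum
  have hsA : s * A ≤ 1 := by rw [hs, one_div_mul_eq_div]; exact (div_le_one (by positivity)).2 (by linarith)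
  linarith

/-- A median: at most half of the mass lies strictly on each side. -/
theorem exists_median (K : Finset ℤ) (p : ℤ → ℝ) (hp : ∀ a ∈ K, 0 < p a) (h1 : ∑ a ∈ K, p a = 1) :
    ∃ m ∈ K, ∑ a ∈ K.filter (· < m), p a ≤ 1 / 2 ∧ ∑ a ∈ K.filter (m < ·), p a ≤ 1 / 2 := by
  have hKne : K.Nonempty := by rw [nonempty_iff_ne_empty]; rintro rfl; simp at h1
  have hne : (K.filter fun a => 1 / 2 ≤ ∑ b ∈ K.filter (· ≤ a), p b).Nonempty := by
    refine ⟨K.max' hKne, mem_filter.2 ⟨K.max'_mem hKne, ?_⟩⟩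
    rw [filter_true_of_mem fun b hb => le_max' K b hb, h1]; norm_num
  obtain ⟨hm, hm2⟩ := mem_filter.1 (min'_mem _ hne)
  set m := (K.filter fun a => 1 / 2 ≤ ∑ b ∈ K.filter (· ≤ a), p b).min' hne
  refine ⟨m, hm, ?_, ?_⟩
  · by_contra hc
    rcases (K.filter (· < m)).eq_empty_or_nonempty with he | he
    · rw [he, sum_empty] at hc; norm_num at hc
    obtain ⟨h3, h4⟩ := mem_filter.1 (max'_mem _ he)
    refine absurd (min'_le _ _ (mem_filter.2 ⟨h3, ?_⟩)) (not_le.2 h4)
    refine (not_le.1 hc).le.trans (sum_le_sum_of_subset_of_nonneg (fun b hb => ?_)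
      fun b hb _ => (hp b (mem_filter.1 hb).1).le)
    exact mem_filter.2 ⟨(mem_filter.1 hb).1, le_max' _ b hb⟩
  · have := sum_filter_add_sum_filter_not K (· ≤ m) p
    simp only [not_le] at this
    linarith

/-- Splitting the weights at a median. -/
theorem median_split (K : Finset ℤ) (p : ℤ → ℝ) (hp : ∀ a ∈ K, 0 < p a) (h1 : ∑ a ∈ K, p a = 1) :
    ∃ (m : ℤ) (wp wm : ℤ → ℝ), (∀ a ∈ K, 0 ≤ wp a ∧ 0 ≤ wm a) ∧
      (∀ a ∈ K, wp a + wm a = 2 * p a) ∧ ∑ a ∈ K, wp a = 1 ∧ ∑ a ∈ K, wm a = 1 ∧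
      ∀ a ∈ K, (wp a - wm a) * ((a - m : ℤ) : ℝ) = 2 * p a * |((a - m : ℤ) : ℝ)| := by
  obtain ⟨m, hm, hlo, hhi⟩ := exists_median K p hp h1
  set U := ∑ a ∈ K.filter (m < ·), p a
  set wp : ℤ → ℝ := fun a => if m < a then 2 * p a else if a = m then 1 - 2 * U else 0
  have hwp : ∑ a ∈ K, wp a = 1 := by
    rw [← sum_filter_add_sum_filter_not K (m < ·)]
    rw [sum_congr rfl fun a ha => if_pos (mem_filter.1 ha).2, ← mul_sum]
    rw [sum_congr rfl fun a ha => if_neg (mem_filter.1 ha).2,
      sum_ite_eq' _ m fun _ => 1 - 2 * U, if_pos (mem_filter.2 ⟨hm, lt_irrefl m⟩)]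
    ring
  have hsplit : U + (p m + ∑ a ∈ K.filter (· < m), p a) = 1 := by
    rw [← h1, ← sum_filter_add_sum_filter_not K (m < ·) p]
    congr 1
    rw [show K.filter (fun a => ¬ m < a) = insert m (K.filter (· < m)) from ?_, sum_insert (by simp)]
    ext a; simp only [mem_filter, mem_insert]
    exact ⟨fun h => (not_lt.1 h.2).lt_or_eq.elim (fun h' => Or.inr ⟨h.1, h'⟩) Or.inl,
      fun h => h.elim (fun h' => ⟨h' ▸ hm, by omega⟩) fun h' => ⟨h'.1, by omega⟩⟩
  refine ⟨m, wp, fun a => 2 * p a - wp a, fun a ha => ?_, fun a _ => by ring, hwp, ?_, fun a _ => ?_⟩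
  · have := (hp a ha).le
    simp only [wp]
    split_ifs with h2 h3
    · constructor <;> linarith
    · subst h3; constructor <;> linarith
    · constructor <;> linarith
  · rw [sum_sub_distrib, ← mul_sum, h1, hwp]; norm_num
  · simp only [wp]
    split_ifs with h2 h3
    · rw [abs_of_nonneg (by exact_mod_cast (show (0 : ℤ) ≤ a - m by omega))]; ring
    · subst h3; simp
    · rw [abs_of_nonpos (by exact_mod_cast (show a - m ≤ 0 by omega))]; ring

/-- A finite set of lattice points has Rademacher width at least the order of `d` times the `d`-th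
root of its size. -/
theorem width_discrete : ∀ (d : ℕ) (S : Finset (Fin d → ℤ)), S.Nonempty →
    ∀ H : (Fin d → Bool) → ℝ, (∀ e, ∀ x ∈ S, ∑ i, sg (e i) * (x i : ℝ) ≤ H e) →
    (d : ℝ) * Real.exp (Real.log S.card / d) / (2 * Real.exp 1) - 3 / 2 * d ≤
      (∑ e, H e) / (2 : ℝ) ^ d := by
  intro d
  induction d with
  | zero =>
    intro S ⟨x, hx⟩ H hH
    simpa using sum_nonneg fun e (_ : e ∈ (univ : Finset (Fin 0 → Bool))) => by simpa using hH e x hx
  | succ d ih =>
    intro S hS H hH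
    set K := S.image fun x => x 0
    set sl : ℤ → Finset (Fin d → ℤ) := fun a => (S.filter fun x => x 0 = a).image Fin.tail
    have hmem : ∀ a y, y ∈ sl a ↔ Fin.cons a y ∈ S := fun a y => by
      simp only [sl, mem_image, mem_filter]
      refine ⟨?_, fun h => ⟨_, ⟨h, Fin.cons_zero _ _⟩, Fin.tail_cons _ _⟩⟩
      rintro ⟨x, ⟨hx, rfl⟩, rfl⟩
      rwa [Fin.cons_self_tail]
    have hne : ∀ a ∈ K, (sl a).Nonempty := fun a ha => by
      obtain ⟨x, hx, rfl⟩ := mem_image.1 ha
      exact ⟨Fin.tail x, (hmem _ _).2 (by rwa [Fin.cons_self_tail])⟩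
    have hcard : ∑ a ∈ K, (sl a).card = S.card := by
      rw [card_eq_sum_card_image (fun x => x 0) S]
      refine sum_congr rfl fun a _ => card_image_of_injOn fun x hx y hy h => ?_
      rw [← Fin.cons_self_tail x, ← Fin.cons_self_tail y, h, (mem_filter.1 hx).2, (mem_filter.1 hy).2]
    set N : ℝ := (S.card : ℝ)
    have hN : 0 < N := Nat.cast_pos.2 hS.card_pos
    set p : ℤ → ℝ := fun a => ((sl a).card : ℝ) / N
    have hp : ∀ a ∈ K, 0 < p a := fun a ha => div_pos (Nat.cast_pos.2 (hne a ha).card_pos) hN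
    have hp1 : ∑ a ∈ K, p a = 1 := by
      rw [← sum_div, ← Nat.cast_sum, hcard, div_self hN.ne']
    obtain ⟨m, wp, wm, hw0, hw2, hwp, hwm, hwd⟩ := median_split K p hp hp1
    set M : ℤ → (Fin d → Bool) → ℝ := fun a e =>
      if h : (sl a).Nonempty then (sl a).sup' h fun y => ∑ i, sg (e i) * (y i : ℝ) else 0
    set A := ∑ a ∈ K, p a * |((a - m : ℤ) : ℝ)| with hA
    -- one pair of signs
    have hpair : ∀ e, 2 * A + 2 * ∑ a ∈ K, p a * M a e ≤ H (Fin.cons true e) + H (Fin.cons false e) := by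
      intro e
      have hub : ∀ a ∈ K, ∀ b, sg b * (a : ℝ) + M a e ≤ H (Fin.cons b e) := fun a ha b => by
        obtain ⟨y, hy, hye⟩ := exists_mem_eq_sup' (hne a ha) fun y => ∑ i, sg (e i) * (y i : ℝ)
        simp only [M, dif_pos (hne a ha), hye]
        have := hH (Fin.cons b e) _ ((hmem a y).1 hy)
        rw [Fin.sum_univ_succ] at this
        simpa using this
      have hav : ∀ w : ℤ → ℝ, (∀ a ∈ K, 0 ≤ w a) → ∑ a ∈ K, w a = 1 → ∀ b,
          ∑ a ∈ K, w a * (sg b * (a : ℝ) + M a e) ≤ H (Fin.cons b e) := fun w hw hw1 b =>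
        (sum_le_sum fun a ha => mul_le_mul_of_nonneg_left (hub a ha b) (hw a ha)).trans_eq
          (by rw [← sum_mul, hw1, one_mul])
      refine le_trans (le_of_eq ?_) (add_le_add (hav wp (fun a ha => (hw0 a ha).1) hwp true)
        (hav wm (fun a ha => (hw0 a ha).2) hwm false))
      have hzero : ∑ a ∈ K, (wp a - wm a) * (m : ℝ) = 0 := by
        rw [← sum_mul, sum_sub_distrib, hwp, hwm, sub_self, zero_mul]
      rw [hA, mul_sum, mul_sum, ← sum_add_distrib, ← sum_add_distrib, ← add_zero (∑ a ∈ K, _),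
        ← hzero, ← sum_add_distrib]
      refine sum_congr rfl fun a ha => ?_
      have h1 := hwd a ha
      have h2 := hw2 a ha
      push_cast at h1 ⊢
      simp only [sg, if_true, Bool.false_eq_true, if_false]
      linear_combination -h1 - M a e * h2
    have hIH : ∀ a ∈ K, (d : ℝ) * Real.exp (Real.log (sl a).card / d) / (2 * Real.exp 1) - 3 / 2 * d ≤
        (∑ e, M a e) / (2 : ℝ) ^ d := fun a ha => ih (sl a) (hne a ha) (M a) fun e y hy => by
      simp only [M, dif_pos (hne a ha)]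
      exact le_sup' (fun y => ∑ i, sg (e i) * (y i : ℝ)) hy
    set G := ∑ a ∈ K, p a * Real.exp (Real.log (sl a).card / d)
    have hW : A + (d * G / (2 * Real.exp 1) - 3 / 2 * d) ≤ (∑ e, H e) / (2 : ℝ) ^ (d + 1) := by
      have h1 : ∑ e, H e = ∑ e, (H (Fin.cons true e) + H (Fin.cons false e)) := by
        rw [← (Fin.consEquiv fun _ => Bool).sum_comp, Fintype.sum_prod_type, Fintype.sum_bool,
          ← sum_add_distrib]
        rfl
      have h2 : d * G / (2 * Real.exp 1) - 3 / 2 * d ≤ ∑ a ∈ K, p a * ((∑ e, M a e) / (2 : ℝ) ^ d) := by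
        refine le_trans (le_of_eq ?_) (sum_le_sum fun a ha => mul_le_mul_of_nonneg_left (hIH a ha) (hp a ha).le)
        simp only [mul_sub, sum_sub_distrib, ← sum_mul, hp1, one_mul, G, mul_sum, sum_div]
        congr 1
        exact sum_congr rfl fun a _ => by ring
      have h3 := sum_le_sum (s := univ) fun e _ => hpair e
      rw [← h1, sum_add_distrib, sum_const, card_univ, Fintype.card_fun, Fintype.card_bool,
        Fintype.card_fin, nsmul_eq_mul, ← mul_sum, sum_comm] at h3
      simp only [← mul_sum, Nat.cast_pow, Nat.cast_ofNat] at h3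
      rw [le_div_iff₀ (by positivity)]
      have h4 : ∑ a ∈ K, p a * ((∑ e, M a e) / (2 : ℝ) ^ d) =
          (∑ a ∈ K, p a * ∑ e, M a e) / (2 : ℝ) ^ d := by
        rw [sum_div]; exact sum_congr rfl fun a _ => by ring
      rw [h4, le_div_iff₀ (by positivity)] at h2
      rw [pow_succ]
      linarith
    -- counting
    have hA0 : 0 ≤ A := sum_nonneg fun a ha => mul_nonneg (hp a ha).le (abs_nonneg _)
    have hlog : Real.log N ≤ ∑ a ∈ K, p a * Real.log (sl a).card + (1 + Real.log (3 + 2 * A)) := by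
      have := entropy_le K p hp hp1 m rfl
      have e : ∑ a ∈ K, p a * Real.log (p a) = ∑ a ∈ K, p a * Real.log (sl a).card - Real.log N := by
        conv_rhs => rw [← one_mul (Real.log N), ← hp1, sum_mul, ← sum_sub_distrib]
        refine sum_congr rfl fun a ha => ?_
        rw [← mul_sub, ← Real.log_div (Nat.cast_ne_zero.2 (hne a ha).card_pos.ne') hN.ne']
      rw [e, ← hA] at this
      linarith
    have hd1 : (0 : ℝ) < d + 1 := by positivity
    have hkey : (d + 1) * Real.exp (Real.log N / (d + 1)) ≤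
        d * G + Real.exp 1 * (3 + 2 * A) := by
      set u := (∑ a ∈ K, p a * Real.log (sl a).card) / d with hu
      have hu' : (∑ a ∈ K, p a * Real.log (sl a).card) = d * u := by
        rcases Nat.eq_zero_or_pos d with hd | hd
        · subst hd
          rw [Nat.cast_zero, zero_mul]
          refine sum_eq_zero fun a ha => ?_
          have h1 : (sl a).card ≤ 1 := card_le_one.2 fun x _ y _ => Subsingleton.elim x y
          have h2 := (hne a ha).card_pos
          rw [show (sl a).card = 1 by omega]; simp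
        · rw [hu]; field_simp
      have hG : Real.exp u ≤ G := by
        rw [hu, sum_div]
        refine le_trans (le_of_eq ?_) (exp_mean_le K p _ (fun a ha => (hp a ha).le) hp1)
        congr 1
        exact sum_congr rfl fun a _ => by ring
      have hconv := exp_mean_le (univ : Finset Bool) (fun b => if b then d / (d + 1 : ℝ) else 1 / (d + 1))
        (fun b => if b then u else 1 + Real.log (3 + 2 * A))
        (fun b _ => by cases b <;> simp <;> positivity)
        (by simp; field_simp)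
      simp only [Fintype.sum_bool, if_true, Bool.false_eq_true, if_false] at hconv
      calc (d + 1) * Real.exp (Real.log N / (d + 1))
          ≤ (d + 1) * Real.exp (d / (d + 1) * u + 1 / (d + 1) * (1 + Real.log (3 + 2 * A))) := by
            refine mul_le_mul_of_nonneg_left (Real.exp_le_exp.2 ?_) hd1.le
            rw [div_le_iff₀ hd1]
            field_simp
            linarith
        _ ≤ (d + 1) * (d / (d + 1) * Real.exp u + 1 / (d + 1) * Real.exp (1 + Real.log (3 + 2 * A))) :=
            mul_le_mul_of_nonneg_left hconv hd1.le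
        _ = d * Real.exp u + Real.exp 1 * (3 + 2 * A) := by
            rw [Real.exp_add, Real.exp_log (show (0 : ℝ) < 3 + 2 * A by linarith), mul_add, ← mul_assoc, ← mul_assoc, mul_div_cancel₀ _ hd1.ne', mul_one_div_cancel hd1.ne', one_mul]
        _ ≤ _ := by gcongr
    refine le_trans ?_ hW
    push_cast
    have he := Real.exp_pos 1
    have := div_le_div_of_nonneg_right hkey (show 0 ≤ 2 * Real.exp 1 by positivity)
    rw [add_div, show Real.exp 1 * (3 + 2 * A) / (2 * Real.exp 1) = 3 / 2 + A by field_simp] at this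
    linarith

end Vale.Agent.P160R.RM
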